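import Vale.Agent.P200F.L7
import Vale.Agent.P200.H710.Count

/-!
The lex-plus-powers conjecture over every field with consecutive cancellations, and the
generalized Cayley-Bacharach conjectures of Eisenbud, Green and Harris.
-/

namespace Vale.Agent.Results.P200.CayleyBacharach

open MvPolynomial Module Vale.Agent.P200F Vale.Agent.P200.H710 Finset

/-- (1) The lex-plus-powers conjecture, and the Betti numbers of `S/I` are obtained from those of
`S/J` by consecutive cancellations. (2) If `I` contains a form of degree `t` outside `(f)`, then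
its Hilbert function is at most that of `P + (m)`, `m` the lexicographically greatest monomial of
degree `t` outside `P`. (3), (4) The generalized Cayley-Bacharach conjectures: the greatest degree
of a subscheme of a complete intersection which lies on such a hypersurface, and the least degree of
one which fails to impose independent conditions on forms of degree `m`. -/
theorem result (K : Type*) [Field K] {n c : ℕ} (h : c ≤ n) (a : Fin c → ℕ)
    (ha : Monotone a) (h2 : ∀ i, 2 ≤ a i) (f : Fin c → MvPolynomial (Fin n) K)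
    (hf : ∀ i, (f i).IsHomogeneous (a i)) (hreg : IsRegularSeq f)
    (I : Ideal (MvPolynomial (Fin n) K)) (hI : ∀ g ∈ I, ∀ d, homogeneousComponent d g ∈ I)
    (hfI : ∀ i, f i ∈ I) :
    -- (1) the lex-plus-powers conjecture, with consecutive cancellations
    (∃ J : Ideal (MvPolynomial (Fin n) K), J.restrictScalars K = lexPlusPowers h a I ∧
      (∀ p j, bettiNumber I p j ≤ bettiNumber J p j) ∧
      ∃ k : ℕ → ℕ → ℕ, (∀ j, k 0 j = 0) ∧
        ∀ p j, bettiNumber J p j = bettiNumber I p j + k p j + k (p + 1) j) ∧
    -- (2) ideals containing one more form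
    (∀ t, ∀ g ∈ I, g.IsHomogeneous t → g ∉ Ideal.span (Set.range f) →
      ∃ m ∈ outside h a t, (∀ e ∈ outside h a t, ¬ lexGT e m) ∧
        ∀ d, hilbertFn I d ≤
          hilbertFn (powerIdeal K h a ⊔ Ideal.span {monomial m (1 : K)}) d) ∧
    -- (3) the bound for the degree, in dimension zero and one
    (∀ s : Fin c, ∀ r < a s, ∀ g ∈ I, g.IsHomogeneous (∑ i ∈ Iio s, (a i - 1) + r) →
      g ∉ Ideal.span (Set.range f) →
        (n = c → ∀ D, ∑ d ∈ range D, hilbertFn I d + (a s - r) * ∏ i ∈ Ioi s, a i ≤ ∏ i, a i) ∧
        (n = c + 1 → ∀ d, hilbertFn I d + (a s - r) * ∏ i ∈ Ioi s, a i ≤ ∏ i, a i)) ∧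
    -- (4) saturated ideals of subschemes which fail to impose independent conditions
    (n = c + 1 → (∀ g, (∀ i, X i * g ∈ I) → g ∈ I) →
      ∀ s : Fin c, ∀ r < a s, ∀ m d, m + 1 = ∑ i ∈ Ioi s, (a i - 1) + r →
        hilbertFn I m < hilbertFn I d → (r + 1) * ∏ i ∈ Ioi s, a i ≤ hilbertFn I d) := by
  have hpos : ∀ i, 1 ≤ a i := fun i => le_trans one_le_two (h2 i)
  refine ⟨?_, fun t g hg hgt hgf => form_bound K h a ha h2 f hf hreg I hI hfI t g hg hgt hgf,
    ?_, ?_⟩
  · obtain ⟨J, hJ, hle⟩ := V.lpp K h a ha h2 f hf hreg I hI hfI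
    exact ⟨J, hJ, hle, exists_cancel K h a ha h2 f hf hreg I hI hfI J hJ⟩
  · intro s r hr g hg hgt hgf
    obtain ⟨N, hN, hcard, hex⟩ := exists_N K h a ha h2 f hf hreg I hI hfI
    have hv := hex s r hr g hg hgt hgf
    refine ⟨?_, ?_⟩
    · intro hn D
      subst hn
      have h1 := upper_count_art a hN (tp a s r) hv D
      rw [prod_tp a hpos s r] at h1
      simpa only [hcard] using h1
    · intro hn d
      subst hn
      have h1 := upper_count h a hN (tp a s r) hv d
      rwa [prod_tp a hpos s r, hcard] at h1
  · intro hn hsat s r hr m d hm hlt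
    obtain ⟨N, hN, hcard, -⟩ := exists_N K h a ha h2 f hf hreg I hI hfI
    obtain ⟨h3, h4⟩ := hilb_growth (I := I) hI hsat (m := m) (d := d) hlt
    subst hn
    have h5 := lower_count h a hpos hN s r hr m hm (by
      rw [hcard, hcard]
      exact h3)
    rw [hcard] at h5
    exact h5.trans h4

end Vale.Agent.Results.P200.CayleyBacharach
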