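import Vale.Agent.P200F.L7
import Vale.Agent.P200.H391.Bridge

/-!
The Eisenbud-Green-Harris conjecture over every field, its relative form over the complete
intersection `S / (f)`, and the Sperner property of all artinian complete intersections.
-/

namespace Vale.Agent.Results.P200.SpernerProperty

open MvPolynomial Module

/-- `F = (f)`, `P = (x_1 ^ a_1, …, x_c ^ a_c)`, `M = (x_1, …, x_n)`; `D I d` is the degree `d` part of
`I`, `B d` the set of exponents of the monomials of degree `d` outside `P`.
(1) The Eisenbud-Green-Harris conjecture: `J` is an ideal. (2) The same inequality for the generators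
of `I / (f)` and for the socle of `S / I`, degree by degree. (3) If `n = c`, let `k` be half of
`∑ (a_i - 1)` and `N = dim (S / F)_k`; this is the largest value of the Hilbert function of `S / F`.
Every ideal which contains `F`, homogeneous or not, is generated by `F` and at most `N` elements,
and `S / I` has a socle of dimension at most `N`; both bounds are attained. -/
theorem result (K : Type*) [Field K] {n c : ℕ} (h : c ≤ n) (a : Fin c → ℕ)
    (ha : Monotone a) (h2 : ∀ i, 2 ≤ a i) (f : Fin c → MvPolynomial (Fin n) K)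
    (hf : ∀ i, (f i).IsHomogeneous (a i))
    (hreg : ∀ (i : Fin c) (g : MvPolynomial (Fin n) K),
      f i * g ∈ Ideal.span (f '' {j | j < i}) → g ∈ Ideal.span (f '' {j | j < i}))
    (F P M : Ideal (MvPolynomial (Fin n) K)) (hF : F = Ideal.span (Set.range f))
    (hP : P = Ideal.span (Set.range fun i => X (Fin.castLE h i) ^ a i))
    (hM : M = Ideal.span (Set.range X))
    (D : Ideal (MvPolynomial (Fin n) K) → ℕ → Submodule K (MvPolynomial (Fin n) K))
    (hD : ∀ I d, D I d = I.restrictScalars K ⊓ homogeneousSubmodule (Fin n) K d)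
    (B : ℕ → Set (Fin n →₀ ℕ))
    (hB : ∀ d, B d = {e | (∀ i, e (Fin.castLE h i) < a i) ∧ ∑ i, e i = d}) :
    -- (1), (2)
    (∀ I : Ideal (MvPolynomial (Fin n) K), (∀ g ∈ I, ∀ d, homogeneousComponent d g ∈ I) →
      (∀ i, f i ∈ I) →
      ∃ J : Ideal (MvPolynomial (Fin n) K),
        J.restrictScalars K = ⨆ d, (D P d ⊔ Submodule.span K ((fun e => monomial e (1 : K)) ''
          {e | e ∈ B d ∧ {e' | e' ∈ B d ∧
            toLex (e : Fin n → ℕ) < toLex (e' : Fin n → ℕ)}.ncard <
              finrank K (D I d) - finrank K (D P d)})) ∧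
        (∀ d, finrank K (D J d) = finrank K (D I d)) ∧
        (∀ d, finrank K (D (M * J ⊔ P) d) ≤ finrank K (D (M * I ⊔ F) d)) ∧
        ∀ d, finrank K (D (Submodule.colon I (Set.range X)) d) ≤
          finrank K (D (Submodule.colon J (Set.range X)) d)) ∧
    -- (3)
    (n = c → ∀ (H : ℕ → ℕ) (k N : ℕ),
      (∀ d, H d = finrank K
        ((homogeneousSubmodule (Fin n) K d).map (Ideal.Quotient.mkₐ K F).toLinearMap)) →
      k = (∑ i, (a i - 1)) / 2 → N = H k →
      (∀ d, H d ≤ N) ∧
      (∀ I : Ideal (MvPolynomial (Fin n) K), F ≤ I →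
        (∃ G : Finset (MvPolynomial (Fin n) K), G.card ≤ N ∧ I = F ⊔ Ideal.span G) ∧
        finrank K (⨅ i : Fin n, LinearMap.ker
          (LinearMap.mulLeft K (Ideal.Quotient.mk I (X i))) :
            Submodule K (MvPolynomial (Fin n) K ⧸ I)) ≤ N) ∧
      (∀ G : Finset (MvPolynomial (Fin n) K), F ⊔ M ^ k = F ⊔ Ideal.span G → N ≤ G.card) ∧
      ∃ I : Ideal (MvPolynomial (Fin n) K), F ≤ I ∧
        finrank K (⨅ i : Fin n, LinearMap.ker
          (LinearMap.mulLeft K (Ideal.Quotient.mk I (X i))) :
            Submodule K (MvPolynomial (Fin n) K ⧸ I)) = N) := by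
  have hDe : ∀ I d, D I d = P200F.degPart I d := hD
  have hBe : ∀ d, B d = P200F.outside h a d := hB
  have hPe : P = P200F.powerIdeal K h a := hP
  refine ⟨fun I hI hfI => ?_, ?_⟩
  · obtain ⟨J, hJ⟩ := P200F.V.egh K h a ha h2 f hf hreg I hI hfI
    obtain ⟨-, -, hfin⟩ := P200F.B.lexPlusPowers_spec h a
      (fun i => le_trans one_le_two (h2 i)) f hf hreg I hI hfI J hJ
    have key : ∀ A A' : Ideal (MvPolynomial (Fin n) K), ∀ d, P200F.hilb A d ≤ P200F.hilb A' d →
        finrank K (P200F.degPart A' d) ≤ finrank K (P200F.degPart A d) := by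
      intro A A' d hle
      have q1 := P200F.G.finrank_piece_add_hilb A d
      have q2 := P200F.G.finrank_piece_add_hilb A' d
      have q3 : finrank K (P200F.degPart A d) = finrank K (P200F.piece A d) := rfl
      have q4 : finrank K (P200F.degPart A' d) = finrank K (P200F.piece A' d) := rfl
      omega
    refine ⟨J, ?_, fun d => ?_, fun d => ?_, fun d => ?_⟩
    · have hDf : D = P200F.degPart := funext₂ hDe
      have hBf : B = P200F.outside h a := funext hBe
      rw [hJ, P200F.lexPlusPowers]
      subst hDf hBf hPe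
      simp only [P200.H391.lexGT_iff]
      rfl
    · rw [hDe, hDe]
      exact hfin d
    · rw [hDe, hDe, hPe, hF, hM]
      exact key _ _ d (P200.H391.rel_gen K h a ha h2 f hf hreg I hI hfI J hJ d)
    · rw [hDe, hDe]
      exact key _ _ d (P200.H391.rel_soc K h a ha h2 f hf hreg I hI hfI J hJ d)
  · rintro hn H k N hH hk hN
    subst hn hk hN hF hM
    have hHF : P200F.HomIdeal (Ideal.span (Set.range f)) := P200.H391.homIdeal_f a f hf
    have hHe : ∀ d, H d = P200F.hilb (Ideal.span (Set.range f)) d := by
      intro d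
      rw [hH, P200.H391.finrank_map_hom]
    simp only [hHe]
    have hsoc : ∀ I : Ideal (MvPolynomial (Fin n) K), Ideal.span (Set.range f) ≤ I →
        finrank K (⨅ i : Fin n, LinearMap.ker
          (LinearMap.mulLeft K (Ideal.Quotient.mk I (X i))) :
            Submodule K (MvPolynomial (Fin n) K ⧸ I)) +
          finrank K (MvPolynomial (Fin n) K ⧸ Submodule.colon I (Set.range X)) =
            finrank K (MvPolynomial (Fin n) K ⧸ I) := fun I hFI =>
      P200.H391.finrank_socle (D := ∑ i, (a i - 1) + 1) fun d hd g hg =>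
        hFI (P200.H391.f_big K a h2 f hf hreg d hd g hg)
    refine ⟨fun d => P200.H391.hilb_f_le K a f hf hreg d, fun I hFI => ⟨?_, ?_⟩, fun G hG => ?_, ?_⟩
    · obtain ⟨G, h3, h4⟩ := P200.H391.few_generators K a ha h2 f hf hreg I
        fun i => hFI (Ideal.subset_span ⟨i, rfl⟩)
      exact ⟨G, h3, by rw [h4, Ideal.span_union]⟩
    · have h3 := P200.H391.small_socle K a ha h2 f hf hreg I
        fun i => hFI (Ideal.subset_span ⟨i, rfl⟩)
      have h4 := hsoc I hFI
      omega
    · exact P200.H391.many_generators hHF _ G hG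
    · refine ⟨Ideal.span (Set.range f) ⊔ Ideal.span (Set.range X) ^ ((∑ i, (a i - 1)) / 2 + 1),
        le_sup_left, ?_⟩
      have h3 := P200.H391.small_socle K a ha h2 f hf hreg
        (Ideal.span (Set.range f) ⊔ Ideal.span (Set.range X) ^ ((∑ i, (a i - 1)) / 2 + 1))
        fun i => Ideal.mem_sup_left (Ideal.subset_span ⟨i, rfl⟩)
      have h4 : finrank K (MvPolynomial (Fin n) K ⧸ Submodule.colon
          (Ideal.span (Set.range f) ⊔ Ideal.span (Set.range X) ^ ((∑ i, (a i - 1)) / 2 + 1))
            (Set.range (X : Fin n → MvPolynomial (Fin n) K))) +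
          P200F.hilb (Ideal.span (Set.range f)) ((∑ i, (a i - 1)) / 2) ≤
            finrank K (MvPolynomial (Fin n) K ⧸
              (Ideal.span (Set.range f) ⊔ Ideal.span (Set.range X) ^ ((∑ i, (a i - 1)) / 2 + 1))) :=
        P200.H391.large_socle hHF ((∑ i, (a i - 1)) / 2)
      have h5 := hsoc _ (le_sup_left : Ideal.span (Set.range f) ≤
        Ideal.span (Set.range f) ⊔ Ideal.span (Set.range X) ^ ((∑ i, (a i - 1)) / 2 + 1))
      omega

end Vale.Agent.Results.P200.SpernerProperty
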